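import Vale.Agent.P284.H747.Nef

/-!
# P284: special manifolds with nef canonical bundle

Let `X` be a compact connected Kähler manifold of dimension `n ≥ 1`.

1. If `K_X` is nef and `c_1(K_X)^n > 0`, or the simplicial volume of `X` is not zero (`n ≥ 2`), or
   the Kobayashi-Royden pseudometric of `X` is nondegenerate at one point, then `X` is of general
   type: some `K_X^m`, `m ≥ 1`, has `n + 1` sections `s_i` such that the `s_i / s_0` are local
   coordinates at some point.
2. If `X` is special then `X` is not Brody hyperbolic. If moreover `K_X` is nef, then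
   `c_1(K_X)^n = 0`, the simplicial volume of `X` is `0` (`n ≥ 2`), the Kobayashi-Royden pseudometric
   of `X` is degenerate at every point, and no covering of `X` has a holomorphic map that is
   immersive at some point to a bounded domain or to a manifold whose Kobayashi-Royden pseudometric
   is nondegenerate at the image point.
-/

open scoped Manifold ContDiff ComplexOrder

namespace Vale.Agent.Results.P284.SpecialNefCanonical

open Vale.Agent.P272.K Vale.Agent.P284.H747
open Vale.Agent.P272.KOD (JetAt)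
open Vale.Agent.P284.H248 (Special)
open Vale.Agent.P223.K (sv)
open Vale.Agent.P223.H959 (realAtlas)

theorem result (n : ℕ) (hn : 1 ≤ n) (X : Type) [TopologicalSpace X] [T2Space X] [CompactSpace X]
    [ConnectedSpace X] [ChartedSpace (Cm n) X] [IsManifold 𝓘(ℂ, Cm n) ω X]
    (w : Chart n X → Cm n → Matrix (Fin n) (Fin n) ℂ) (hw : IsKahler w) :
    (NefCanonical w 0 →
      ((∃ (φ : Chart n X → Cm n → ℝ) (I : ℝ), IsCanonicalMetric φ ∧ 0 < I ∧
          IsIntegral (fun e z => (cHess (φ e) z).det.re) I) ∨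
        (2 ≤ n ∧ sv (realAtlas n X) ≠ 0) ∨ ∃ x : X, DiscsBounded n x) →
      ∃ m : ℕ, 1 ≤ m ∧ ∃ x : X, JetAt n m x) ∧
    (Special n X → ¬ BrodyHyperbolic n X ∧
      (NefCanonical w 0 →
        (∀ φ : Chart n X → Cm n → ℝ, IsCanonicalMetric φ →
          IsIntegral (fun e z => (cHess (φ e) z).det.re) 0) ∧
        (2 ≤ n → sv (realAtlas n X) = 0) ∧
        (∀ x : X, ¬ DiscsBounded n x) ∧
        ∀ (D : Type) [TopologicalSpace D] [ChartedSpace (Cm n) D] [IsManifold 𝓘(ℂ, Cm n) ω D]
          (p : D → X), IsCoveringMap p → IsLocalDiffeomorph 𝓘(ℂ, Cm n) 𝓘(ℂ, Cm n) ω p →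
          (∀ (m : ℕ) (g : D → Cm m), ContMDiff 𝓘(ℂ, Cm n) 𝓘(ℂ, Cm m) ω g →
            (∃ R : ℝ, ∀ y, ‖g y‖ ≤ R) → ∀ y, ¬ Immersive n m g y) ∧
          (∀ (m : ℕ) (Y : Type) [TopologicalSpace Y] [ChartedSpace (Cm m) Y]
            [IsManifold 𝓘(ℂ, Cm m) ω Y] (g : D → Y), ContMDiff 𝓘(ℂ, Cm n) 𝓘(ℂ, Cm m) ω g →
            ∀ y, DiscsBounded m (g y) → ¬ Immersive n m g y))) := by
  refine ⟨fun hnef h => ?_, fun hsp => ⟨not_brody_of_special hn hsp hw, fun hnef => ⟨fun φ hφ =>
    zero_of_special hn hsp hw hnef hφ, fun h2 => sv_zero_of_special h2 hsp hw hnef,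
    unbounded_of_special hn hsp hw hnef, ?_⟩⟩⟩
  · rcases h with ⟨φ, I, hφ, hI, hint⟩ | ⟨h2, hsv⟩ | ⟨x, hx⟩
    · exact mp hn hw hnef hφ hI hint
    · exact jet_of_sv h2 hw hnef hsv
    · exact jet_of_discsBounded hn hw hnef hx
  · intro D _ _ _ p hp hpl
    refine ⟨fun m g hg hR y hi => ?_, fun m Y _ _ _ g hg y hY hi => ?_⟩
    · obtain ⟨R, hR⟩ := hR
      exact cover_of_special hn hsp hw hnef hp hpl y (discsBounded_of_bounded hg hR hi)
    · exact cover_of_special hn hsp hw hnef hp hpl y (discsBounded_of_immersive hg hi hY)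

end Vale.Agent.Results.P284.SpecialNefCanonical
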