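import Vale.Agent.P284.H248.Fin

/-!
# Campana's abelianity conjecture for nonpositive holomorphic sectional curvature

Let `X` be a compact connected complex manifold with a Kähler metric `w` of nonpositive holomorphic
sectional curvature. `X` is special if and only if `w` is flat. If `X` is special, then `π₁(X)` is
virtually abelian, and `X` is a finite étale quotient of a complex torus.
-/

open scoped Manifold ContDiff
open Vale.Agent.P272.K Vale.Agent.P284.H248

namespace Vale.Agent.Results.P284.SpecialNonposHSC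

theorem result {n : ℕ} {X : Type} [TopologicalSpace X] [T2Space X] [CompactSpace X]
    [ConnectedSpace X] [ChartedSpace (Cm n) X] [IsManifold 𝓘(ℂ, Cm n) ω X]
    (w : Chart n X → Cm n → Matrix (Fin n) (Fin n) ℂ) (hw : IsKahler w) (hR : NonposHSC w) :
    (Special n X ↔ ∀ e x, At e x → ∀ i j k l, curv (w e) (e x) i j k l = 0) ∧
    (Special n X → (∀ x : X, VirtuallyAbelian (FundamentalGroup X x)) ∧
      ∃ (q : Cm n → X) (Λ : AddSubgroup (Cm n)) (R : ℝ),
        IsLocalDiffeomorph 𝓘(ℂ, Cm n) 𝓘(ℂ, Cm n) ω q ∧ Function.Surjective q ∧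
        (∀ l ∈ Λ, ∀ z, q (z + l) = q z) ∧ ∀ z, ∃ l ∈ Λ, ‖z - l‖ ≤ R) := by
  obtain ⟨h1, h2⟩ := main hw hR
  exact ⟨h1, fun h => ⟨h2 h, torus_of_flat hw (h1.1 h)⟩⟩

end Vale.Agent.Results.P284.SpecialNonposHSC
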